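import Vale.Agent.P014Y.F.St
import Vale.Agent.P014Y.F.Pt.Kd

/-!
# P014Y, block CH: the row `ABS` (helper11)
-/

set_option linter.all false

noncomputable section

namespace Vale.Agent.P014Y.F.Ch

open Vale.Agent.P022 Vale.Agent.P004K Vale.Agent.P014U

variable [Pp] {e : Crv} (b : Fld e)

theorem cc : b.c * b.c = 1 := P004M.TE.conj_sq (hq e.par.disc) b.cc

theorem det_c : (e.r b.c).det = -1 := X4M.TE.det_conj _ b.cc

theorem im_eq : e.r '' b.Γ = Set.range e.r :=
  (Set.image_subset_range _ _).antisymm fun _ ⟨g, h⟩ => h ▸ b.onto g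

/-- **the row `ABS`** -/
theorem abs : ABS := fun e b => im_eq b ▸ Pg.abs (hq e.par.disc)

end Vale.Agent.P014Y.F.Ch
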