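import Vale.Agent.P014Y.F.Ch.Irr

/-!
# P014Y, block CH: the row `KPX` (port of P004F; helper11)
-/

set_option linter.all false

noncomputable section

namespace Vale.Agent.P014Y.F.Ch

open NumberField Matrix
open Vale.Agent.P022 Vale.Agent.P004K Vale.Agent.P014U
open Vale.Agent.P027M.S (Inert)
open Vale.Agent.P022E.GW (Ov Fb)
open Vale.Agent.P022K.G2 (ka)

variable [Pp] {e : Crv} (b : Fld e) {l : ℕ} {P : Ideal (𝓞 Qb)} {φ : GQ}

/-- a prime whose Frobenius element moves the field is inert -/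
theorem inert_prime (o : Ov l P) (h2 : l ≠ 2) (hd : ¬ l ∣ b.δ') (f : Fb l P φ) (h : φ ∉ b.Γ) :
    (Ideal.span {(l : 𝓞 b.K)}).IsPrime := by
  have := o.2.1
  let z : 𝓞 b.K →+* 𝓞 Qb := RingOfIntegers.mapRingHom b.j
  have pr : (P.comap z).IsPrime := Ideal.IsPrime.comap _
  have hl : (l : 𝓞 b.K) ∈ P.comap z := by rw [Ideal.mem_comap, map_natCast]; exact o.2.2
  obtain ⟨J, hJ⟩ := Ideal.dvd_iff_le.2 ((Ideal.span_singleton_le_iff_mem _).2 hl)
  have n := congrArg Ideal.absNorm hJ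
  rw [Ideal.absNorm_span_natCast, RingOfIntegers.rank, b.iq.two, map_mul] at n
  obtain ⟨i, hi, k⟩ := (Nat.dvd_prime_pow o.1).1 (Dvd.intro _ n.symm)
  interval_cases i
  · exact absurd (Ideal.absNorm_eq_one_iff.1 k) pr.ne_top
  · exfalso
    have n0 : P.comap z ≠ ⊥ := fun k => o.1.ne_zero (by simpa [k] using hl)
    have mx := pr.isMaximal n0
    letI := Ideal.Quotient.field (P.comap z)
    have := Ideal.finiteQuotientOfFreeOfNeBot _ n0
    letI := Fintype.ofFinite (𝓞 b.K ⧸ P.comap z)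
    have c : Fintype.card (𝓞 b.K ⧸ P.comap z) = l := by
      rw [← pow_one l, ← k, Ideal.absNorm_apply, Submodule.cardQuot_apply, Nat.card_eq_fintype_card]
    have a1 := FiniteField.pow_card (Ideal.Quotient.mk (P.comap z) b.θ)
    rw [c, ← map_pow, Ideal.Quotient.eq, Ideal.mem_comap, map_sub, map_pow] at a1
    have a2 := f (z b.θ)
    have d0 : (-(b.δ' : ℤ)) ≠ 0 := by have := b.pos; omega
    rw [show φ • z b.θ = -z b.θ from RingOfIntegers.ext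
      ((P004S.nu_eq_one d0 b.jθ).1 ((P004S.z2 _).resolve_left (mt (b.kd.gk _).2 h)))] at a2
    have a3 : ((4 * b.δ' : ℤ) : 𝓞 Qb) ∈ P := by
      refine (congrArg (· ∈ P) ?_).mpr (P.mul_mem_left (2 * z b.θ) (P.add_mem a1 a2))
      have := congrArg z b.th
      rw [map_pow, map_neg, map_natCast] at this
      push_cast
      linear_combination 4 * this
    rcases (Nat.prime_iff_prime_int.1 o.1).dvd_or_dvd (P004S.ov_dvd o a3) with k4 | k4
    · have : l ∣ 2 ^ 2 := by exact_mod_cast k4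
      exact h2 ((Nat.prime_dvd_prime_iff_eq o.1 Nat.prime_two).1 (o.1.dvd_of_dvd_pow this))
    · exact hd (Int.natCast_dvd_natCast.1 k4)
  · rw [k] at n
    rw [hJ, Ideal.absNorm_eq_one_iff.1 (mul_left_cancel₀ (pow_ne_zero 2 o.1.ne_zero)
      (n.symm.trans (mul_one _).symm)), Ideal.mul_top]
    exact pr

/-- inertia groups fix the ring class fields of conductor prime to `l` -/
theorem inert_hc (r2 : RC2) (o : Ov l P) {c : ℕ} (hc : 0 < c) (h : ¬ l ∣ c) {g : GQ} (m : g ∈ b.Γ)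
    (i : Inert P g) : g ∈ Hc b.j c := by
  obtain ⟨-, -, -, -, a1, -, a2⟩ := r2 b.K b.j b.iq c hc
  refine (a1 _ g ⟨by simp, by simp⟩ (a2 P o.2.1 (fun k => o.1.ne_zero (by simpa [k] using o.2.2))
    (fun k => h (Int.natCast_dvd_natCast.1 (P004S.ov_dvd o (by simpa using k)))) g m 0
    (by simpa [Inert] using i))).2 ⟨1, 0, by simp⟩

/-- a generator for the ring class field generates tame inertia -/
theorem ka_ne (r1 : RC1) (r2 : RC2) (o : Ov l P) (h2 : l ≠ 2) (hp : l ≠ pp) (hd : ¬ l ∣ b.δ')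
    {t : GQ} (i : Inert P t) {n : ℕ} (hn : pp ∣ n) (g : Gen b.j 1 l n t) : ka pp l t ≠ 0 := by
  classical
  obtain ⟨-, a1, a2, -⟩ := r1 b.K b.j b.iq (1 * l) (by simpa using o.1.pos)
  obtain ⟨τ, hτ⟩ := ex_gn o hp
  have uq : ∀ x (k k' : ℕ), x⁻¹ * t ^ k ∈ Hc b.j (1 * l) → x⁻¹ * t ^ k' ∈ Hc b.j (1 * l) →
      (k : ZMod pp) = k' := fun x k k' h h' => by
    wlog c : k ≤ k' generalizing k k'
    · exact (this k' k h' h (le_of_not_ge c)).symm
    obtain ⟨a, rfl⟩ := Nat.exists_eq_add_of_le c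
    have h1 := mul_mem (inv_mem h) h'
    rw [_root_.mul_inv_rev, inv_inv, mul_assoc, mul_inv_cancel_left, pow_add,
      inv_mul_cancel_left] at h1
    rw [Nat.cast_add, (ZMod.natCast_eq_zero_iff _ _).2 (hn.trans ((g.2.1 _).1 h1)), add_zero]
  let ω : GQ → ZMod pp := fun x =>
    if h : ∃ k : ℕ, x⁻¹ * t ^ k ∈ Hc b.j (1 * l) then (h.choose : ℕ) else 0
  have key : ∀ x (k : ℕ), x⁻¹ * t ^ k ∈ Hc b.j (1 * l) → ω x = k := fun x k hk =>
    (dif_pos ⟨k, hk⟩).trans (uq x _ k (Exists.choose_spec (⟨k, hk⟩ : ∃ k : ℕ, x⁻¹ * t ^ k ∈ _)) hk)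
  have ex : ∀ x, Inert P x → ∃ k : ℕ, x⁻¹ * t ^ k ∈ Hc b.j (1 * l) := fun x hx =>
    g.2.2 x (inert_hc b r2 o one_pos (fun k => o.1.one_lt.ne' (Nat.dvd_one.1 k))
      (b.inert_mem o h2 hd hx) hx)
  obtain ⟨W, hW, w⟩ := P022K.G2.ka_lv (p := pp) (Nat.cast_ne_zero.2 o.1.ne_zero : (l : Qb) ≠ 0)
  obtain ⟨k, hk⟩ := X4F.Lt.lt1 o 1 hp hτ i (U := Hc b.j (1 * l) ⊓ W) (a1.inter hW.opn)
  have z : ∀ a : ZMod pp, pp ^ 1 • a = 0 := fun a => by simp
  have b1 := hk _ (ka pp l) z (fun g _ m => (w g m.2).2) fun g h a _ => X4F.Lt.ka_in o hp a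
  have b2 := hk _ ω z (fun x _ m => by simpa using key x 0 (by simpa using m.1)) fun x y hx hy => by
    obtain ⟨u, hu⟩ := ex x hx
    obtain ⟨v, hv⟩ := ex y hy
    rw [key x u hu, key y v hv, key (x * y) (u + v), Nat.cast_add]
    have := mul_mem (a2.conj_mem' _ hu y) hv
    rwa [show y⁻¹ * (x⁻¹ * t ^ u) * y * (y⁻¹ * t ^ v) = (x * y)⁻¹ * t ^ (u + v) by
      rw [pow_add]; group] at this
  rw [key t 1 (by simpa using one_mem _), Nat.cast_one, nsmul_eq_mul] at b2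
  rw [b1, hτ.2, nsmul_eq_mul, mul_one]
  exact left_ne_zero_of_mul_eq_one b2.symm

theorem gen_pow {K : Type} [Field K] {j : K →+* Qb} {c n a : ℕ} {t : GQ} (g : Gen j c l n t)
    (h : a.Coprime n) (h1 : 1 < n) : Gen j c l n (t ^ a) := by
  refine ⟨pow_mem g.1 a, fun i => by rw [← pow_mul, g.2.1, h.symm.dvd_mul_left], fun x hx => ?_⟩
  obtain ⟨i, hi⟩ := g.2.2 x hx
  obtain ⟨m, -, hm⟩ := Nat.exists_mul_mod_eq_one_of_coprime h h1
  refine ⟨m * i, ?_⟩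
  rw [← pow_mul, ← mul_assoc, ← Nat.mod_add_div (a * m) n, hm, add_mul, one_mul, pow_add,
    ← mul_assoc]
  exact mul_mem hi ((g.2.1 _).2 ((dvd_mul_right _ _).mul_right _))

theorem ex_unit {n : ℕ} (h0 : n ≠ 0) (hn : pp ∣ n) {x : ZMod pp} (hx : x ≠ 0) :
    ∃ a : ℕ, a.Coprime n ∧ a * x = 1 := by
  have := NeZero.mk h0
  obtain ⟨v, hv⟩ := ZMod.unitsMap_surjective hn (Units.mk0 x hx)⁻¹
  refine ⟨(v : ZMod n).val, ZMod.val_coe_unit_coprime v, ?_⟩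
  rw [ZMod.natCast_val, ← ZMod.unitsMap_val hn, hv]
  exact (Units.mk0 x hx).inv_mul

/-- **the row `KPX`** -/
theorem kpx (r1 : RC1) (r2 : RC2) (r3 : RC3) : KPX := by
  intro e b j c Ψ hΨ h m t1 t3 W hW T
  have c0 : 0 < c := hΨ.sq.ne_zero.bot_lt
  obtain ⟨U, hU, le⟩ := P022K.G2.ex_lv' (H := W ⊓ Hc b.j c ⊓ e.rep.Kn (j + 1))
    ((hW.inter (r1 b.K b.j b.iq c c0).2.1).inter (e.rep.Kn_open _))
  obtain ⟨l, φ, hl, lT, ⟨P, hP⟩, hφ⟩ := P022K.Cheb.exists_fr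
    (hU.opn.preimage (continuous_const_mul (b.c * h)⁻¹)) (g := b.c * h) (by simpa using U.one_mem)
    (T ∪ b.T c ∪ (b.M * b.δ').primeFactors)
  obtain ⟨u, hu, rfl⟩ : ∃ u ∈ U, φ = b.c * h * u := ⟨_, hφ, by group⟩
  simp only [Finset.mem_union, not_or] at lT
  obtain ⟨⟨l1, l2⟩, l3⟩ := lT
  have lS : l ∉ e.S := fun k => l2 (Finset.mem_union_left _ (List.mem_toFinset.2 k))
  have h2 := e.ne_two lS
  have hp := e.ne_pp lS
  have l4 : ¬ l ∣ b.M * b.δ' := fun k =>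
    l3 (Nat.mem_primeFactors.2 ⟨hl, k, (Nat.mul_pos b.M0 b.pos).ne'⟩)
  have l5 : ¬ l ∣ b.δ' := fun k => l4 (k.mul_left _)
  have o : Ov l P := ⟨hl, hP.1, hP.2.1⟩
  obtain ⟨⟨-, u1⟩, u2⟩ := le hu
  have e1 : b.c * (b.c * h * u) = h * u := by rw [← mul_assoc, ← mul_assoc, cc, one_mul]
  have out : b.c * h * u ∉ b.Γ := fun k =>
    b.c_out ((b.Γ.mul_mem_cancel_right m).1 ((b.Γ.mul_mem_cancel_right u1.1).1 k))
  have tr := e.tr_dvd.1 ((e.rep.Kn (j + 1)).mul_mem (e.tr_dvd.2 t1) u2)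
  have dv : pp ^ (j + 1) ∣ l + 1 := by
    have a1 : (e.r (h * u)).map (PadicInt.toZModPow (j + 1)) = 1 := Matrix.ext fun i i' => by
      have := Pg.dvd_iff.1 (tr i i')
      rw [Matrix.sub_apply, map_sub, sub_eq_zero] at this
      rw [map_apply, this]
      by_cases a : i = i' <;> simp [one_apply, a]
    have a2 := congrArg det a1
    rw [← RingHom.mapMatrix_apply, ← RingHom.map_det, ← e1, map_mul, det_mul, det_c,
      e.det_fb o hp hP.2.2, det_one] at a2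
    rw [← ZMod.natCast_eq_zero_iff, Nat.cast_add, Nat.cast_one, ← a2]
    simp
  obtain ⟨t, i, g⟩ := (r3 b.K b.j b.iq b.upm).2 l (l + 1)
    ⟨hl, .inl ⟨inert_prime b o h2 l5 hP.2.2 out, rfl⟩⟩ P hP.1 hP.2.1
  have d1 : pp ∣ l + 1 := (dvd_pow_self pp j.succ_ne_zero).trans dv
  obtain ⟨a, a1, a2⟩ := ex_unit l.succ_ne_zero d1 (ka_ne b r1 r2 o h2 hp l5 i d1
    (g 1 one_pos fun k => hl.one_lt.ne' (Nat.dvd_one.1 k)))
  refine ⟨⟨l, P, b.c * h * u, t ^ a, ⟨o, hp, dv, hP.2.2,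
    ⟨(H443.inP P).pow_mem i a, (X4F.Lt.ka_pw o hp i a).trans a2⟩,
    fun x hx => b.inert_mem o h2 l5 hx, out⟩, l2, l4, e1.symm ▸ tr, ?_, fun c' c1 c2 =>
      gen_pow (g c' c1 c2) a1 (Nat.lt_succ_of_lt hl.one_lt)⟩, l1, ?_⟩
  · rw [e1, hΨ.mul h m u u1.1, t3, hΨ.ker u u1, mul_one]
  · refine (le ?_).1.1
    have := mul_mem (hU.nrm.conj_mem' u hu (b.c * h)) hu
    rwa [show (b.c * h)⁻¹ * u * (b.c * h) * u =
      (b.c * h * (b.c * h))⁻¹ * (b.c * h * u) ^ 2 by simp only [pow_two]; group] at this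

end Vale.Agent.P014Y.F.Ch
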